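import Crest.Agent.GQ.PC.CDefs

/-!
# Project GQ, part C: Borel-Caratheodory
-/

set_option autoImplicit false

noncomputable section

open NumberField Complex MeasureTheory IsDedekindDomain
open scoped nonZeroDivisors ENNReal

namespace Crest.Agent.GQ.PC



theorem logDeriv_bound {θ : ℝ} (hθ : 1 / 2 ≤ θ) (hθ1 : θ < 1) : ∃ C : ℝ, 0 ≤ C ∧
    ∀ (Z : ℂ → ℂ) (A : ℝ), 1 ≤ A → DifferentiableOn ℂ Z {s | θ < s.re} →
      (∀ s : ℂ, θ < s.re → Z s ≠ 0) →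
      (∀ s : ℂ, θ < s.re → s.re ≤ 4 → ‖Z s‖ ≤ Real.exp (A * (1 + |s.im|))) →
      (∀ t : ℝ, Real.exp (-A) ≤ ‖Z (2 + t * I)‖) →
      ∀ s : ℂ, (1 + θ) / 2 ≤ s.re → s.re ≤ 2 → ‖deriv Z s / Z s‖ ≤ C * A * (1 + |s.im|) := by
  sorry

end Crest.Agent.GQ.PC
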