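import Crest.Agent.GQ.PC.CDefs

/-!
# Project GQ, part C: basic facts
-/

set_option autoImplicit false

noncomputable section

open NumberField Complex MeasureTheory IsDedekindDomain
open scoped nonZeroDivisors ENNReal

namespace Crest.Agent.GQ.PC

variable {L : Type} [Field L] [NumberField L]

theorem ce_mul (x y : L) : ce (x * y) = ce x * ce y := by
  sorry

theorem ce_add (x y : L) : ce (x + y) = ce x + ce y := by
  sorry

theorem ce_ne_zero {x : L} (hx : x ≠ 0) (v : Pc L) : ce x v ≠ 0 := by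
  sorry

theorem clg_mul {x y : L} (hx : x ≠ 0) (hy : y ≠ 0) : clg (x * y) = clg x + clg y := by
  sorry

theorem clg_inv (x : L) : clg x⁻¹ = -clg x := by
  sorry

instance countable_ideal : Countable (Ideal (𝓞 L)) := by
  sorry

instance countable_hos : Countable (HeightOneSpectrum (𝓞 L)) := by
  sorry

theorem one_le_Dd : 1 ≤ Dd L := by
  sorry

theorem one_le_dg : 1 ≤ dg L := by
  sorry

theorem Nf_pos {b : FI L} (hb : b ≠ 0) : 0 < Nf b := by
  sorry

theorem Nf_mul (a b : FI L) : Nf (a * b) = Nf a * Nf b := by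
  sorry

theorem Nf_coe (a : Ideal (𝓞 L)) : Nf (a : FI L) = Ideal.absNorm a := by
  sorry

theorem dualI_ne_zero {b : FI L} (hb : b ≠ 0) : dualI b ≠ 0 := by
  sorry

theorem Nf_dualI {b : FI L} (hb : b ≠ 0) : Nf (dualI b) = (Nf b * Dd L)⁻¹ := by
  sorry

theorem scal_ne_zero {q : ℕ} (hq : q ≠ 0) {b : FI L} (hb : b ≠ 0) : scal q b ≠ 0 := by
  sorry

theorem scal_one (b : FI L) : scal 1 b = b := by
  sorry

theorem Nf_scal (q : ℕ) (b : FI L) : Nf (scal q b) = (q : ℝ) ^ Module.finrank ℚ L * Nf b := by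
  sorry

theorem summable_absNorm {σ : ℝ} (hσ : 1 < σ) :
    Summable (fun a : Ideal (𝓞 L) => (Ideal.absNorm a : ℝ) ^ (-σ)) := by
  sorry

theorem two_le_Np (v : HeightOneSpectrum (𝓞 L)) : 2 ≤ Np v := by
  sorry

/-- Every prime has norm a power of a rational prime lying in it. -/
theorem exists_Np_eq (v : HeightOneSpectrum (𝓞 L)) : ∃ p f : ℕ, p.Prime ∧ 1 ≤ f ∧
    (p : 𝓞 L) ∈ v.asIdeal ∧ Ideal.absNorm v.asIdeal = p ^ f := by
  sorry

/-- At most `[L : ℚ]` primes lie above a rational prime. -/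
theorem ncard_above_le {p : ℕ} (hp : p.Prime) :
    {v : HeightOneSpectrum (𝓞 L) | (p : 𝓞 L) ∈ v.asIdeal}.Finite ∧
    {v : HeightOneSpectrum (𝓞 L) | (p : 𝓞 L) ∈ v.asIdeal}.ncard ≤ Module.finrank ℚ L := by
  sorry

theorem Lf_one (s : ℂ) : Lf L (1 : DirichletCharacter ℂ 1) s = zetaL L s := by
  sorry

theorem tendsto_zetaL : ∃ ρ : ℝ, 0 < ρ ∧
    Filter.Tendsto (fun s : ℝ => ((s : ℂ) - 1) * zetaL L s) (nhdsWithin 1 (Set.Ioi 1)) (nhds ρ) := by
  sorry

variable [IsTotallyComplex L]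

theorem two_mul_card_Pc : 2 * Fintype.card (Pc L) = Module.finrank ℚ L := by
  sorry

theorem card_Pc_pos : 0 < Fintype.card (Pc L) := by
  sorry

theorem norm_eq_prod (x : L) : ((Algebra.norm ℚ x : ℚ) : ℝ) = ∏ v, ‖ce x v‖ ^ 2 := by
  sorry

theorem trace_eq_sum (x : L) : ((Algebra.trace ℚ L x : ℚ) : ℝ) = ∑ v, 2 * (ce x v).re := by
  sorry

theorem Nf_spanSingleton {x : L} (hx : x ≠ 0) :
    Nf (FractionalIdeal.spanSingleton (𝓞 L)⁰ x) = Real.exp (2 * ∑ v, clg x v) := by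
  sorry

theorem sum_clg_unit (u : (𝓞 L)ˣ) : ∑ v, clg ((u : 𝓞 L) : L) v = 0 := by
  sorry

end Crest.Agent.GQ.PC
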