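import Crest.Agent.GQ.PC.CDefs
import Crest.Agent.GQ.Gam

/-!
# Project GQ, part C: contour shift with the log-Gaussian weight
-/

set_option autoImplicit false

noncomputable section

open NumberField Complex MeasureTheory IsDedekindDomain
open scoped nonZeroDivisors ENNReal

namespace Crest.Agent.GQ.PC



theorem contour {σ : ℝ} (hσ : 1 / 2 ≤ σ) (hσ1 : σ < 1) : ∃ C : ℝ, 0 ≤ C ∧
    ∀ (ι : Type) [Countable ι] (N Λ : ι → ℝ) (g : ℂ → ℂ) (A : ℝ), 0 ≤ A → (∀ i, 1 ≤ N i) →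
      (∀ i, 0 ≤ Λ i) → Summable (fun i => Λ i * N i ^ (-2 : ℝ)) →
      DifferentiableOn ℂ g {s | σ ≤ s.re ∧ s.re ≤ 2} →
      (∀ s : ℂ, σ ≤ s.re → s.re ≤ 2 → ‖g s‖ ≤ A * (1 + |s.im|)) →
      (∀ s : ℂ, s.re = 2 → ∑' i, (Λ i : ℂ) * (N i : ℂ) ^ (-s) = 1 / (s - 1) - g s) →
      ∀ x : ℝ, 1 ≤ x → Summable (fun i => Λ i * wG (N i / x)) ∧
        |∑' i, Λ i * wG (N i / x) - c0 * x| ≤ C * (1 + A) * x ^ σ := by
  sorry

end Crest.Agent.GQ.PC
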