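import Crest.Agent.GQ.Iface

/-!
# Project GQ, part C: definitions (Hecke's method for totally complex fields)
-/

set_option autoImplicit false

noncomputable section

open NumberField Complex MeasureTheory IsDedekindDomain
open scoped nonZeroDivisors ENNReal

namespace Crest.Agent.GQ.PC

variable (L : Type) [Field L] [NumberField L]

/-- The complex places. -/
abbrev Pc : Type := {w : InfinitePlace L // w.IsComplex}
open Classical in
instance : Fintype (Pc L) := Subtype.fintype _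
/-- Fractional ideals. -/
abbrev FI : Type := FractionalIdeal (𝓞 L)⁰ L
/-- The degree. -/
def dg : ℝ := (Module.finrank ℚ L : ℝ)
/-- The absolute value of the discriminant. -/
def Dd : ℝ := |(discr L : ℝ)|
/-- The Gamma factor. -/
def gamf (s : ℂ) : ℂ := ((2 * Real.pi : ℂ) ^ (-s) * Gamma s / 2) ^ Fintype.card (Pc L)
/-- The Dedekind zeta function as a sum over ideals. -/
def zetaL (s : ℂ) : ℂ := ∑' a : Ideal (𝓞 L), (Ideal.absNorm a : ℂ) ^ (-s)
/-- The L-function of a Dirichlet character composed with the norm. -/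
def Lf {q : ℕ} (χ : DirichletCharacter ℂ q) (s : ℂ) : ℂ :=
  ∑' a : Ideal (𝓞 L), χ (Ideal.absNorm a : ZMod q) * (Ideal.absNorm a : ℂ) ^ (-s)
/-- The norm of a prime. -/
def Np {L : Type} [Field L] [NumberField L] (v : HeightOneSpectrum (𝓞 L)) : ℝ :=
  (Ideal.absNorm v.asIdeal : ℝ)
/-- The log-Gaussian weight. -/
def wG (u : ℝ) : ℝ := Real.exp (-(Real.log u) ^ 2)
/-- The smoothed Chebyshev function. -/
def psiW (x : ℝ) : ℝ :=
  ∑' p : HeightOneSpectrum (𝓞 L) × ℕ, Real.log (Np p.1) * wG (Np p.1 ^ (p.2 + 1) / x)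
/-- `∫ wG`. -/
def c0 : ℝ := Real.sqrt Real.pi * Real.exp (1 / 4)
/-- The non-trivial character modulo `3`. -/
def chi3 : DirichletCharacter ℂ 3 := (quadraticChar (ZMod 3)).ringHomComp (Int.castRingHom ℂ)

variable {L}

/-- Minkowski embedding. -/
def ce (x : L) : Pc L → ℂ := fun w => w.1.embedding x
/-- Logarithmic embedding. -/
def clg (x : L) : Pc L → ℝ := fun w => Real.log ‖ce x w‖
/-- Norm of a fractional ideal. -/
def Nf (b : FI L) : ℝ := ((FractionalIdeal.absNorm b : ℚ) : ℝ)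
/-- The trace dual. -/
def dualI (b : FI L) : FI L := FractionalIdeal.dual ℤ ℚ b
/-- `q b`. -/
def scal (q : ℕ) (b : FI L) : FI L := FractionalIdeal.spanSingleton (𝓞 L)⁰ (q : L) * b
/-- The Gaussian. -/
def gs2 (t : Pc L → ℝ) (x : L) : ℝ :=
  Real.exp (-(2 * Real.pi * ∑ v, Real.exp (2 * t v) * ‖ce x v‖ ^ 2))
open Classical in
/-- The theta series without its constant term. -/
def th (b : FI L) (ψ : L → ℂ) (t : Pc L → ℝ) : ℂ :=
  ∑' x : L, if x ∈ b ∧ x ≠ 0 then ψ x * (gs2 t x : ℂ) else 0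
/-- `a b` is principal and non-zero. -/
def InS (b : FI L) (a : Ideal (𝓞 L)) : Prop :=
  ∃ x : L, x ≠ 0 ∧ FractionalIdeal.spanSingleton (𝓞 L)⁰ x = (a : FI L) * b
open Classical in
/-- Partial Dirichlet series. -/
def Dp (b : FI L) (φ : Ideal (𝓞 L) → ℂ) (s : ℂ) : ℂ :=
  ∑' a : Ideal (𝓞 L), if InS b a then φ a * (Ideal.absNorm a : ℂ) ^ (-s) else 0

/-- A partition of unity for the action of the units on the logarithmic space. -/
structure UW (β : (Pc L → ℝ) → ℝ) (Rg : ℝ) : Prop where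
  meas : Measurable β
  nonneg : ∀ t, 0 ≤ β t
  Rg_nonneg : 0 ≤ Rg
  hasSum : ∀ t, HasSum (fun u : (𝓞 L)ˣ => β (t + clg ((u : 𝓞 L) : L))) 1
  map : ∀ g : ℝ → ℝ≥0∞, Measurable g →
    ∫⁻ t, ENNReal.ofReal (β t) * g (∑ v, t v) = ENNReal.ofReal Rg * ∫⁻ y, g y

/-- Generators of a Kummer field. -/
structure Kum (L : Type) [Field L] [NumberField L] (m l : ℕ) (a : ℤ) where
  z : L
  al : L
  hz : IsPrimitiveRoot z m
  hal : al ^ l = (a : L)
  gen : IntermediateField.adjoin ℚ {z, al} = ⊤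

end Crest.Agent.GQ.PC
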