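import Crest.Agent.GQ.PC.CBase

/-!
# Project GQ, part C: discriminant bounds
-/

set_option autoImplicit false

noncomputable section

open NumberField Complex MeasureTheory IsDedekindDomain
open scoped nonZeroDivisors ENNReal

namespace Crest.Agent.GQ.PC

variable {L : Type} [Field L] [NumberField L]

theorem Dd_le_of_span (S : Set L) (H : ℝ) (hH : 1 ≤ H) (hint : ∀ x ∈ S, IsIntegral ℤ x)
    (hb : ∀ x ∈ S, ∀ φ : L →+* ℂ, ‖φ x‖ ≤ H) (hspan : Submodule.span ℚ S = ⊤) :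
    Dd L ≤ (dg L * H) ^ (2 * Module.finrank ℚ L) := by
  sorry

theorem Kum.finrank_le {m l : ℕ} {a : ℤ} (k : Kum L m l a) (hm : m ≠ 0) (hl : l ≠ 0) :
    Module.finrank ℚ L ≤ m * l := by
  sorry

theorem Kum.log_Dd_le {m l : ℕ} {a : ℤ} (k : Kum L m l a) (hm : m ≠ 0) (hl : l ≠ 0) (ha : a ≠ 0) :
    dg L + Real.log (Dd L) ≤ 3 * ((m : ℝ) * l) ^ 2 * (1 + Real.log |(a : ℝ)|) := by
  sorry

theorem Kum.isTotallyComplex {m l : ℕ} {a : ℤ} (k : Kum L m l a) (hm : 3 ≤ m) :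
    IsTotallyComplex L := by
  sorry

end Crest.Agent.GQ.PC
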