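import Crest.Agent.GQ.PC.CBase

/-!
# Project GQ, part C: Euler products over ideals
-/

set_option autoImplicit false

noncomputable section

open NumberField Complex MeasureTheory IsDedekindDomain
open scoped nonZeroDivisors ENNReal

namespace Crest.Agent.GQ.PC

variable {L : Type} [Field L] [NumberField L]

theorem euler {f : Ideal (𝓞 L) → ℂ} (hmul : ∀ a b, f (a * b) = f a * f b) (h1 : f ⊤ = 1)
    (h0 : f ⊥ = 0) (hs : Summable (fun a => ‖f a‖)) :
    (∀ v : HeightOneSpectrum (𝓞 L), ‖f v.asIdeal‖ < 1) ∧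
    Summable (fun v : HeightOneSpectrum (𝓞 L) => ‖Complex.log (1 - f v.asIdeal)‖) ∧
    Complex.exp (∑' v : HeightOneSpectrum (𝓞 L), -Complex.log (1 - f v.asIdeal)) = ∑' a, f a := by
  sorry

theorem mu_inv {f : Ideal (𝓞 L) → ℂ} (hmul : ∀ a b, f (a * b) = f a * f b) (h1 : f ⊤ = 1)
    (h0 : f ⊥ = 0) (hs : Summable (fun a => ‖f a‖)) :
    (∑' a, muI a * f a) * ∑' a, f a = 1 := by
  sorry

/-- Removal of the Euler factors at the primes dividing `3`. -/
theorem Lf_principal : ∃ E : ℂ → ℂ, Differentiable ℂ E ∧ (∀ s : ℂ, 0 < s.re → E s ≠ 0) ∧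
    ∀ s : ℂ, 1 < s.re → Lf L (1 : DirichletCharacter ℂ 3) s = E s * zetaL L s := by
  sorry

end Crest.Agent.GQ.PC
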