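import Crest.Agent.GQ.PC.CEuler

/-!
# Project GQ, part C: logarithmic derivative and bounds to the right of 1
-/

set_option autoImplicit false

noncomputable section

open NumberField Complex MeasureTheory IsDedekindDomain
open scoped nonZeroDivisors ENNReal

namespace Crest.Agent.GQ.PC

variable {L : Type} [Field L] [NumberField L]

theorem summable_vonMangoldt {σ : ℝ} (hσ : 1 < σ) :
    Summable (fun p : HeightOneSpectrum (𝓞 L) × ℕ =>
      Real.log (Np p.1) * (Np p.1 ^ (p.2 + 1)) ^ (-σ)) := by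
  sorry

theorem zetaL_ne_zero {s : ℂ} (hs : 1 < s.re) : zetaL L s ≠ 0 := by
  sorry

theorem hasDerivAt_zetaL {s : ℂ} (hs : 1 < s.re) : HasDerivAt (zetaL L)
    (-(∑' p : HeightOneSpectrum (𝓞 L) × ℕ,
      (Real.log (Np p.1) : ℂ) * ((Np p.1 ^ (p.2 + 1) : ℝ) : ℂ) ^ (-s)) * zetaL L s) s := by
  sorry

theorem norm_zetaL_bounds {s : ℂ} (hs : 2 ≤ s.re) :
    Real.exp (-dg L) ≤ ‖zetaL L s‖ ∧ ‖zetaL L s‖ ≤ Real.exp (dg L) := by
  sorry

end Crest.Agent.GQ.PC
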