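import Crest.Agent.GQ.PC.CLat
import Crest.Agent.GQ.PC.CLogD

/-!
# Project GQ, part C: Hecke continuation with a uniform growth bound
-/

set_option autoImplicit false

noncomputable section

open NumberField Complex MeasureTheory IsDedekindDomain
open scoped nonZeroDivisors ENNReal

namespace Crest.Agent.GQ.PC



theorem norm_inv_Gamma_le : ∃ C : ℝ, 0 ≤ C ∧ ∀ s : ℂ, 1 / 2 ≤ s.re → s.re ≤ 4 →
    ‖(Gamma s)⁻¹‖ ≤ Real.exp (C * (1 + |s.im|)) := by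
  sorry

/-- Class representatives prime to `q`. -/
theorem exists_reps {L : Type} [Field L] [NumberField L] {q : ℕ} (hq : q ≠ 0) :
    ∃ S : Finset (Ideal (𝓞 L)), (∀ b ∈ S, b ≠ ⊥ ∧ Nat.Coprime (Ideal.absNorm b) q) ∧
      (∀ a : Ideal (𝓞 L), a ≠ ⊥ → ∃! b, b ∈ S ∧ InS (b : FI L) a) ∧
      (∀ a : Ideal (𝓞 L), a ≠ ⊥ → ∃! b, b ∈ S ∧ InS (dualI (scal q (b : FI L))) a) := by
  sorry

theorem hecke {q : ℕ} (hq : q ≠ 0) : ∃ C : ℝ, 0 ≤ C ∧ ∀ (L : Type) [Field L] [NumberField L]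
    [IsTotallyComplex L] (χ : DirichletCharacter ℂ q), ∃ Z : ℂ → ℂ,
      DifferentiableOn ℂ Z {s | 0 < s.re} ∧ (∀ s : ℂ, 1 < s.re → Z s = (s - 1) * Lf L χ s) ∧
      ∀ s : ℂ, 1 / 2 ≤ s.re → s.re ≤ 4 →
        ‖Z s‖ ≤ Real.exp (C * (dg L + Real.log (Dd L)) * (1 + |s.im|)) := by
  sorry

end Crest.Agent.GQ.PC
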