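import Crest.Agent.GQ.PC.CDefs

/-!
# Project GQ, part C: Kummer fields: existence and degree
-/

set_option autoImplicit false

noncomputable section

open NumberField Complex MeasureTheory IsDedekindDomain
open scoped nonZeroDivisors ENNReal

namespace Crest.Agent.GQ.PC



theorem exists_kum {m l : ℕ} (hm : m ≠ 0) (hl : l ≠ 0) (hlm : l ∣ m) (a : ℤ) :
    ∃ (L : Type) (_ : Field L) (_ : NumberField L), IsGalois ℚ L ∧ Nonempty (Kum L m l a) := by
  sorry

theorem exists_cyc {m : ℕ} (hm : m ≠ 0) :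
    ∃ (L : Type) (_ : Field L) (_ : NumberField L), Module.finrank ℚ L = Nat.totient m ∧
      Nonempty (Kum L m 1 1) := by
  sorry

theorem Kum.finrank_odd {L : Type} [Field L] [NumberField L] {l : ℕ} {a : ℤ} (k : Kum L l l a)
    (hl : l.Prime) (ha : ∀ y : ℚ, y ^ l ≠ (a : ℚ)) : Module.finrank ℚ L = l * (l - 1) := by
  sorry

theorem Kum.finrank_two {L : Type} [Field L] [NumberField L] {a : ℤ} (k : Kum L 4 2 a)
    (ha0 : 0 < a) (ha : ∀ y : ℚ, y ^ 2 ≠ (a : ℚ)) : Module.finrank ℚ L = 4 := by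
  sorry

end Crest.Agent.GQ.PC
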