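import Crest.Agent.GQ.PC.CSplit

/-!
# Project GQ, part C: comparison of `psiW` with sums over rational primes
-/

set_option autoImplicit false

noncomputable section

open NumberField Complex MeasureTheory IsDedekindDomain
open scoped nonZeroDivisors ENNReal

namespace Crest.Agent.GQ.PC

variable {L : Type} [Field L] [NumberField L]

/-- Lower bound for `psiW` by completely split primes. -/
theorem le_psiW {x : ℝ} (hs : Summable (fun p : HeightOneSpectrum (𝓞 L) × ℕ =>
      Real.log (Np p.1) * wG (Np p.1 ^ (p.2 + 1) / x))) (B : Finset ℕ)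
    (hB : ∀ p ∈ B, ∃ S : Finset (HeightOneSpectrum (𝓞 L)), S.card = Module.finrank ℚ L ∧
      ∀ v ∈ S, Ideal.absNorm v.asIdeal = p) :
    dg L * ∑ p ∈ B, Real.log p * wG (p / x) ≤ psiW L x := by
  sorry

open Classical in
/-- Upper bound for `psiW` by primes `1 mod m`. -/
theorem psiW_le : ∃ C : ℝ, 0 ≤ C ∧ ∀ (L : Type) [Field L] [NumberField L] (m : ℕ) (z : L), m ≠ 0 →
    IsPrimitiveRoot z m → ∀ x : ℝ, 1 ≤ x →
      psiW L x ≤ dg L * (∑ p ∈ (Finset.range ⌈2 * x ^ 2⌉₊).filter (fun p => p.Prime ∧ m ∣ p - 1),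
        Real.log p * wG (p / x) + m + C * x ^ (3 / 4 : ℝ)) := by
  sorry

end Crest.Agent.GQ.PC
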