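import Crest.Agent.GQ.PC.CPit
import Crest.Agent.GQ.PC.CDisc
import Crest.Agent.GQ.PC.CKum
import Crest.Agent.GQ.PC.CPsi
import Crest.Agent.R027.ADefs

/-!
# Project GQ, part C: the Kummer-Chebotarev bound
-/

set_option autoImplicit false

noncomputable section

open NumberField Complex MeasureTheory IsDedekindDomain
open scoped nonZeroDivisors ENNReal

namespace Crest.Agent.GQ.PC



theorem kc (a : ℤ) (ha : 2 ≤ |a|) : Crest.Agent.R027.KC a := by
  sorry

end Crest.Agent.GQ.PC
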