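import Crest.Agent.GQ.PC.CMel

/-!
# Project GQ, part C: continuation of a partial zeta function with an explicit bound
-/

set_option autoImplicit false

noncomputable section

open NumberField Complex MeasureTheory IsDedekindDomain
open scoped nonZeroDivisors ENNReal

namespace Crest.Agent.GQ.PC

variable {L : Type} [Field L] [NumberField L] [IsTotallyComplex L]

theorem lat_cont {b : FI L} (hb : b ≠ 0) {q : ℕ} (hq : q ≠ 0) {ψ : L → ℂ}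
    {φ : Ideal (𝓞 L) → ℂ} (h1 : ∀ x, ‖ψ x‖ ≤ 1)
    (hper : ∀ x ∈ b, ∀ y ∈ b, ψ (x + q * y) = ψ x)
    (hφ : ∀ (x : L) (a : Ideal (𝓞 L)), x ≠ 0 →
      FractionalIdeal.spanSingleton (𝓞 L)⁰ x = (a : FI L) * b → ψ x = φ a) :
    ∃ Z : ℂ → ℂ, DifferentiableOn ℂ Z {s | 0 < s.re} ∧
      (∀ s : ℂ, 1 < s.re →
        Z s = (s - 1) * (Real.sqrt (Dd L) : ℂ) ^ s * gamf L s * Dp b φ s) ∧
      ∀ s : ℂ, 1 / 2 ≤ s.re → s.re ≤ 4 →
        ‖Z s‖ ≤ 100 * (1 + ‖s‖) * (q : ℝ) ^ (4 * Module.finrank ℚ L) * Dd L ^ 2 * ‖gamf L 4‖ *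
          (‖Dp b (fun _ => 1) 4‖ + ‖Dp (dualI (scal q b)) (fun _ => 1) 4‖) := by
  sorry

end Crest.Agent.GQ.PC
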