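import Crest.Agent.GQ.PoissonAux2

/-!
# Project GQ, part C: Poisson summation for Gaussians on a lattice in a complex space
-/

set_option autoImplicit false

noncomputable section

open NumberField Complex MeasureTheory IsDedekindDomain
open scoped nonZeroDivisors ENNReal

namespace Crest.Agent.GQ.PC



/-- The Gaussian. -/
def gg {κ : Type} [Fintype κ] (ρ : κ → ℝ) (z : κ → ℂ) : ℝ :=
  Real.exp (-(Real.pi * ∑ v, ‖z v‖ ^ 2 / ρ v))

theorem summable_gg {κ ι : Type} [Fintype κ] [Fintype ι] (b : Module.Basis ι ℝ (κ → ℂ))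
    {ρ : κ → ℝ} (hρ : ∀ v, 0 < ρ v) (z : κ → ℂ) :
    Summable (fun m : ι → ℤ => gg ρ (∑ i, (m i : ℝ) • b i + z)) := by
  sorry

open Classical in
theorem poisson_gg {κ ι : Type} [Fintype κ] [Fintype ι] (b b' : Module.Basis ι ℝ (κ → ℂ))
    (hbb : ∀ i j, ∑ v, 2 * (b i v * b' j v).re = if i = j then 1 else 0)
    {ρ : κ → ℝ} (hρ : ∀ v, 0 < ρ v) (z : κ → ℂ) :
    ∑' m : ι → ℤ, (gg ρ (∑ i, (m i : ℝ) • b i + z) : ℂ) =
      (((∏ v, ρ v) / volume.real (ZSpan.fundamentalDomain b) : ℝ) : ℂ) *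
        ∑' m : ι → ℤ, (gg (fun v => 1 / (4 * ρ v)) (∑ i, (m i : ℝ) • b' i) : ℂ) *
          Complex.exp (2 * Real.pi * I *
            ((∑ v, 2 * ((∑ i, (m i : ℝ) • b' i) v * z v).re : ℝ) : ℂ)) := by
  sorry

end Crest.Agent.GQ.PC
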