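import Crest.Agent.GQ.PC.CBase
import Crest.Agent.GQ.PC.CPois0

/-!
# Project GQ, part C: Poisson summation over fractional ideals
-/

set_option autoImplicit false

noncomputable section

open NumberField Complex MeasureTheory IsDedekindDomain
open scoped nonZeroDivisors ENNReal

namespace Crest.Agent.GQ.PC

variable {L : Type} [Field L] [NumberField L] [IsTotallyComplex L]

open Classical in
theorem summable_gs2 {b : FI L} (hb : b ≠ 0) (t : Pc L → ℝ) :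
    Summable (fun x : L => if x ∈ b then gs2 t x else 0) := by
  sorry

open Classical in
theorem pois_shift {b : FI L} (hb : b ≠ 0) (z : L) (t : Pc L → ℝ) :
    ∑' x : L, (if x ∈ b then (gs2 t (x + z) : ℂ) else 0) =
      (((Nf b * Real.sqrt (Dd L))⁻¹ * Real.exp (-(2 * ∑ v, t v)) : ℝ) : ℂ) *
        ∑' y : L, if y ∈ dualI b then
          Complex.exp (2 * Real.pi * I * ((Algebra.trace ℚ L (y * z) : ℚ) : ℂ)) * (gs2 (-t) y : ℂ)
          else 0 := by
  sorry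

theorem pois_one {b : FI L} (hb : b ≠ 0) (t : Pc L → ℝ) :
    1 + th b (fun _ => 1) t =
      (((Nf b * Real.sqrt (Dd L))⁻¹ * Real.exp (-(2 * ∑ v, t v)) : ℝ) : ℂ) *
        (1 + th (dualI b) (fun _ => 1) (-t)) := by
  sorry

theorem pois_per {b : FI L} (hb : b ≠ 0) {q : ℕ} (hq : q ≠ 0) {ψ : L → ℂ} (h1 : ∀ x, ‖ψ x‖ ≤ 1)
    (hper : ∀ x ∈ b, ∀ y ∈ b, ψ (x + q * y) = ψ x) :
    ∃ ψ' : L → ℂ, (∀ y, ‖ψ' y‖ ≤ 1) ∧ ∀ t : Pc L → ℝ,
      ψ 0 + th b ψ t =
        (((Nf b * Real.sqrt (Dd L))⁻¹ * Real.exp (-(2 * ∑ v, t v)) : ℝ) : ℂ) *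
          (ψ' 0 + th (dualI (scal q b)) ψ' (-t)) := by
  sorry

end Crest.Agent.GQ.PC
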