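import Crest.Agent.GQ.PC.CUnit
import Crest.Agent.GQ.PC.CPois

/-!
# Project GQ, part C: Mellin transform of the theta series
-/

set_option autoImplicit false

noncomputable section

open NumberField Complex MeasureTheory IsDedekindDomain
open scoped nonZeroDivisors ENNReal

namespace Crest.Agent.GQ.PC

variable {L : Type} [Field L] [NumberField L] [IsTotallyComplex L]

theorem measurable_th {b : FI L} (hb : b ≠ 0) {ψ : L → ℂ} (h1 : ∀ x, ‖ψ x‖ ≤ 1) :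
    Measurable (th b ψ) := by
  sorry

theorem norm_th_le {b : FI L} (hb : b ≠ 0) {ψ : L → ℂ} (h1 : ∀ x, ‖ψ x‖ ≤ 1) (t : Pc L → ℝ) :
    ‖th b ψ t‖ ≤ (th b (fun _ => 1) t).re := by
  sorry

theorem th_one_real {b : FI L} (hb : b ≠ 0) (t : Pc L → ℝ) :
    0 ≤ (th b (fun _ => 1) t).re ∧ (th b (fun _ => 1) t).im = 0 := by
  sorry

theorem mel {β : (Pc L → ℝ) → ℝ} {Rg : ℝ} (hβ : UW β Rg) {b : FI L} (hb : b ≠ 0) {ψ : L → ℂ}
    {φ : Ideal (𝓞 L) → ℂ} (h1 : ∀ x, ‖ψ x‖ ≤ 1)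
    (hφ : ∀ (x : L) (a : Ideal (𝓞 L)), x ≠ 0 →
      FractionalIdeal.spanSingleton (𝓞 L)⁰ x = (a : FI L) * b → ψ x = φ a)
    {s : ℂ} (hs : 1 < s.re) :
    Integrable (fun t : Pc L → ℝ =>
      (β t : ℂ) * Complex.exp (2 * s * ((∑ v, t v : ℝ) : ℂ)) * th b ψ t) ∧
    ∫ t : Pc L → ℝ, (β t : ℂ) * Complex.exp (2 * s * ((∑ v, t v : ℝ) : ℂ)) * th b ψ t =
      gamf L s * (Nf b : ℂ) ^ (-s) * Dp b φ s := by
  sorry

end Crest.Agent.GQ.PC
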