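import Crest.Agent.GQ.PC.CPit
import Crest.Agent.GQ.PC.CDisc
import Crest.Agent.GQ.PC.CKum
import Crest.Agent.GQ.PC.CPsi

/-!
# Project GQ, part C: small primes modulo which p is not an l-th power
-/

set_option autoImplicit false

noncomputable section

open NumberField Complex MeasureTheory IsDedekindDomain
open scoped nonZeroDivisors ENNReal

namespace Crest.Agent.GQ.PC



theorem nr : ∃ C : ℕ, ∀ l p : ℕ, l.Prime → p.Prime → ∃ r : ℕ, r.Prime ∧
    (r : ℝ) ≤ C * ((l : ℝ) + Real.log p) ^ C ∧ l ∣ r - 1 ∧ r ≠ p ∧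
      ¬ ∃ y : ZMod r, y ^ l = (p : ZMod r) := by
  sorry

end Crest.Agent.GQ.PC
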