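import Crest.Agent.GQ.PC.CZf
import Crest.Agent.GQ.PC.CBC
import Crest.Agent.GQ.PC.CContour

/-!
# Project GQ, part C: uniform prime ideal theorem
-/

set_option autoImplicit false

noncomputable section

open NumberField Complex MeasureTheory IsDedekindDomain
open scoped nonZeroDivisors ENNReal

namespace Crest.Agent.GQ.PC



theorem pit : ∃ C σ : ℝ, 0 ≤ C ∧ 3 / 4 ≤ σ ∧ σ < 1 ∧ ∀ (L : Type) [Field L] [NumberField L]
    [IsTotallyComplex L] (x : ℝ), 1 ≤ x →
      Summable (fun p : HeightOneSpectrum (𝓞 L) × ℕ =>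
        Real.log (Np p.1) * wG (Np p.1 ^ (p.2 + 1) / x)) ∧
      |psiW L x - c0 * x| ≤ C * (dg L + Real.log (Dd L)) * x ^ σ := by
  sorry

end Crest.Agent.GQ.PC
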