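import Crest.Agent.GQ.PC.CBase

/-!
# Project GQ, part C: complete splitting in Kummer fields
-/

set_option autoImplicit false

noncomputable section

open NumberField Complex MeasureTheory IsDedekindDomain
open scoped nonZeroDivisors ENNReal

namespace Crest.Agent.GQ.PC

variable {L : Type} [Field L] [NumberField L]

theorem Kum.split [IsGalois ℚ L] {m l : ℕ} {a : ℤ} (k : Kum L m l a) (hl : l ≠ 0) (hlm : l ∣ m)
    {p : ℕ} (hp : p.Prime) (hm : m ∣ p - 1) (ha : ¬ (p : ℤ) ∣ a)
    (hy : ∃ y : ZMod p, y ^ l = (a : ZMod p)) :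
    ∃ S : Finset (HeightOneSpectrum (𝓞 L)), S.card = Module.finrank ℚ L ∧
      ∀ v ∈ S, Ideal.absNorm v.asIdeal = p := by
  sorry

/-- A degree one prime of a field containing a primitive `m`-th root of unity. -/
theorem dvd_sub_one_of_norm {m : ℕ} {z : L} (hz : IsPrimitiveRoot z m) (hm : m ≠ 0)
    {v : HeightOneSpectrum (𝓞 L)} {p : ℕ} (hp : p.Prime) (hv : Ideal.absNorm v.asIdeal = p)
    (hpm : ¬ p ∣ m) : m ∣ p - 1 := by
  sorry

end Crest.Agent.GQ.PC
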