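import Crest.Agent.GQ.PC.CEuler

/-!
# Project GQ, part C: adjoining a cube root of unity
-/

set_option autoImplicit false

noncomputable section

open NumberField Complex MeasureTheory IsDedekindDomain
open scoped nonZeroDivisors ENNReal

namespace Crest.Agent.GQ.PC

variable {L : Type} [Field L] [NumberField L]

theorem Lf_adjoin (F : Type) [Field F] [NumberField F] [Algebra L F]
    [IsCyclotomicExtension {3} L F] (h : ∀ w : L, ¬ IsPrimitiveRoot w 3) {s : ℂ} (hs : 1 < s.re) :
    Lf F (1 : DirichletCharacter ℂ 3) s =
      Lf L (1 : DirichletCharacter ℂ 3) s * Lf L chi3 s := by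
  sorry

end Crest.Agent.GQ.PC
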