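import Crest.Agent.GQ.PC.CBase

/-!
# Project GQ, part C: the unit weight
-/

set_option autoImplicit false

noncomputable section

open NumberField Complex MeasureTheory IsDedekindDomain
open scoped nonZeroDivisors ENNReal

namespace Crest.Agent.GQ.PC

variable {L : Type} [Field L] [NumberField L] [IsTotallyComplex L]

theorem exists_UW : ∃ (β : (Pc L → ℝ) → ℝ) (Rg : ℝ), UW β Rg := by
  sorry

omit [IsTotallyComplex L] in
theorem UW.neg {β : (Pc L → ℝ) → ℝ} {Rg : ℝ} (h : UW β Rg) : UW (fun t => β (-t)) Rg := by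
  sorry

omit [IsTotallyComplex L] in
/-- The elementary integral over a half space. -/
theorem UW.integral_Iio {β : (Pc L → ℝ) → ℝ} {Rg : ℝ} (h : UW β Rg) (τ : ℝ) {z : ℂ}
    (hz : 0 < z.re) :
    IntegrableOn (fun t : Pc L → ℝ => (β t : ℂ) * Complex.exp (2 * z * ((∑ v, t v - τ : ℝ) : ℂ)))
      {t | ∑ v, t v < τ} ∧
    ∫ t in {t : Pc L → ℝ | ∑ v, t v < τ},
      (β t : ℂ) * Complex.exp (2 * z * ((∑ v, t v - τ : ℝ) : ℂ)) = Rg / (2 * z) := by
  sorry

end Crest.Agent.GQ.PC
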