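import Crest.Agent.GQ.PC.CHecke
import Crest.Agent.GQ.PC.CSplit3
import Crest.Agent.GQ.Strip

/-!
# Project GQ, part C: the zero-free strip for totally complex fields
-/

set_option autoImplicit false

noncomputable section

open NumberField Complex MeasureTheory IsDedekindDomain
open scoped nonZeroDivisors ENNReal

namespace Crest.Agent.GQ.PC

variable {L : Type} [Field L] [NumberField L]

/-- The strip for the principal character modulo `3`. -/
theorem strip_three (w : L) (hw : IsPrimitiveRoot w 3) : ∃ G : ℂ → ℂ,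
    DifferentiableOn ℂ G {s : ℂ | theta0 < s.re} ∧
      ∀ s : ℂ, 1 < s.re → G s * Lf L (1 : DirichletCharacter ℂ 3) s = 1 := by
  sorry

theorem zero_free [IsTotallyComplex L] {Z : ℂ → ℂ} (hZ : DifferentiableOn ℂ Z {s | 0 < s.re})
    (hZ1 : ∀ s : ℂ, 1 < s.re → Z s = (s - 1) * zetaL L s) {s : ℂ} (hs : theta0 < s.re) :
    Z s ≠ 0 := by
  sorry

end Crest.Agent.GQ.PC
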